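import Mathlib

/-!
# P261: continuous inhomogeneous cochains and a dévissage for finite generation (helper398)
-/

namespace Vale.Agent.P261.R2.H398

open Topology

section fg

variable {A X Y : Type*} [CommRing A] [AddCommGroup X] [Module A X] [AddCommGroup Y] [Module A Y]

theorem exists_lift (f : X →ₗ[A] Y) (T : Submodule A X) (S : Submodule A Y) (hS : S.FG)
    (hle : S ≤ T.map f) : ∃ S' : Submodule A X, S'.FG ∧ S' ≤ T ∧ S'.map f = S := by
  classical
  obtain ⟨t, rfl⟩ := hS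
  have h1 : (t : Set Y) ⊆ f '' (T : Set X) := fun y hy => hle (Submodule.subset_span hy)
  obtain ⟨s, hs, rfl⟩ := Finset.subset_set_image_iff.1 h1
  refine ⟨Submodule.span A s, ⟨s, rfl⟩, Submodule.span_le.2 hs, ?_⟩
  rw [Submodule.map_span, Finset.coe_image]

theorem exists_gen [IsNoetherianRing A] {Z B S T : Submodule A X} (hS : S.FG) (hZ : Z ≤ S ⊔ B)
    (hT : T ≤ Z) : ∃ S' : Submodule A X, S'.FG ∧ S' ≤ T ∧ T ≤ S' ⊔ B := by
  have h1 : T.map B.mkQ ≤ S.map B.mkQ := by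
    refine (Submodule.map_mono (hT.trans hZ)).trans ?_
    rw [Submodule.map_sup, Submodule.mkQ_map_self, sup_bot_eq]
  have h2 : (T.map B.mkQ).FG := by
    have h3 : (S.map B.mkQ).FG := hS.map _
    have h4 := isNoetherian_of_fg_of_noetherian _ h3
    rw [isNoetherian_submodule] at h4
    exact h4 _ h1
  obtain ⟨S', h5, h6, h7⟩ := exists_lift B.mkQ T _ h2 le_rfl
  refine ⟨S', h5, h6, fun x hx => ?_⟩
  have h8 : B.mkQ x ∈ S'.map B.mkQ := by
    rw [h7]
    exact Submodule.mem_map_of_mem hx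
  obtain ⟨y, hy, hyx⟩ := h8
  rw [Submodule.mkQ_apply, Submodule.mkQ_apply, Submodule.Quotient.eq] at hyx
  have h9 : x = y + -(y - x) := by abel
  rw [h9]
  exact Submodule.add_mem_sup hy (Submodule.neg_mem _ hyx)

end fg

section cochains

variable {A G M N : Type} [CommRing A] [Group G] [AddCommGroup M] [Module A M]
  [AddCommGroup N] [Module A N]

/-- The differential of the inhomogeneous cochains. -/
def dd (ρ : Representation A G M) (j : ℕ) :
    ((Fin j → G) → M) →ₗ[A] ((Fin (j + 1) → G) → M) where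
  toFun c x := ρ (x 0) (c fun i => x i.succ) +
    ∑ i : Fin (j + 1), (-1 : A) ^ ((i : ℕ) + 1) • c (Fin.contractNth i (· * ·) x)
  map_add' c c' := by
    ext x
    simp only [Pi.add_apply, map_add, smul_add, Finset.sum_add_distrib]
    abel
  map_smul' a c := by
    ext x
    simp only [Pi.smul_apply, map_smul, RingHom.id_apply, smul_add, Finset.smul_sum]
    congr 1
    exact Finset.sum_congr rfl fun i _ => smul_comm _ _ _

theorem dd_apply (ρ : Representation A G M) (j : ℕ) (c : (Fin j → G) → M) (x : Fin (j + 1) → G) :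
    dd ρ j c x = ρ (x 0) (c fun i => x i.succ) +
      ∑ i : Fin (j + 1), (-1 : A) ^ ((i : ℕ) + 1) • c (Fin.contractNth i (· * ·) x) := rfl

theorem dd_dd (ρ : Representation A G M) (j : ℕ) (c : (Fin j → G) → M) :
    dd ρ (j + 1) (dd ρ j c) = 0 := by
  have h1 := groupCohomology.inhomogeneousCochains.d_comp_d (k := A) (A := Rep.of ρ) (n := j)
  have h2 := congrArg (fun f => f.hom c) h1
  exact h2

/-- composition with a linear map. -/
def mp (f : M →ₗ[A] N) (j : ℕ) : ((Fin j → G) → M) →ₗ[A] ((Fin j → G) → N) :=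
  f.compLeft (Fin j → G)

theorem mp_apply (f : M →ₗ[A] N) (j : ℕ) (c : (Fin j → G) → M) (x : Fin j → G) :
    mp f j c x = f (c x) := rfl

theorem dd_mp (ρ : Representation A G M) (τ : Representation A G N) (f : M →ₗ[A] N)
    (hf : ∀ x m, f (ρ x m) = τ x (f m)) (j : ℕ) (c : (Fin j → G) → M) :
    dd τ j (mp f j c) = mp f (j + 1) (dd ρ j c) := by
  funext x
  rw [mp_apply, dd_apply, dd_apply, map_add, map_sum, hf]
  simp only [map_smul, mp_apply]

/-- `H^(j+1)` is finitely generated: for the cochains in the submodules `C`. -/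
def HF (ρ : Representation A G M) (C : ∀ j, Submodule A ((Fin j → G) → M)) (j : ℕ) : Prop :=
  ∃ S : Submodule A ((Fin (j + 1) → G) → M), S.FG ∧
    S ≤ C (j + 1) ⊓ LinearMap.ker (dd ρ (j + 1)) ∧
    C (j + 1) ⊓ LinearMap.ker (dd ρ (j + 1)) ≤ S ⊔ (C j).map (dd ρ j)

variable {M' M'' : Type} [AddCommGroup M'] [Module A M'] [AddCommGroup M''] [Module A M'']

theorem step [IsNoetherianRing A] (ρ' : Representation A G M') (ρ : Representation A G M)
    (ρ'' : Representation A G M'') (ι : M' →ₗ[A] M) (π : M →ₗ[A] M'')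
    (hι : ∀ x m, ι (ρ' x m) = ρ x (ι m)) (hπ : ∀ x m, π (ρ x m) = ρ'' x (π m))
    (hinj : Function.Injective ι) (hπι : ∀ m, π (ι m) = 0)
    (hex : ∀ m, π m = 0 → ∃ m', ι m' = m)
    (C' : ∀ j, Submodule A ((Fin j → G) → M')) (C : ∀ j, Submodule A ((Fin j → G) → M))
    (C'' : ∀ j, Submodule A ((Fin j → G) → M''))
    (hd : ∀ j, ∀ c ∈ C j, dd ρ j c ∈ C (j + 1))
    (hlift : ∀ j, ∀ c ∈ C'' j, ∃ b ∈ C j, mp π j b = c)
    (hpush : ∀ j, ∀ c ∈ C j, mp π j c ∈ C'' j)
    (hemb : ∀ j c, mp ι j c ∈ C j ↔ c ∈ C' j) (j : ℕ)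
    (h1 : HF ρ C j) (h2 : HF ρ' C' (j + 1)) : HF ρ'' C'' j := by
  obtain ⟨S, hS, hSZ, hZS⟩ := h1
  obtain ⟨S1, hS1, hS1Z, hZS1⟩ := h2
  -- pairs
  let Q : Submodule A (((Fin (j + 1) → G) → M) × ((Fin (j + 1 + 1) → G) → M')) :=
    { carrier := {q | q.1 ∈ C (j + 1) ∧ q.2 ∈ C' (j + 1 + 1) ∧
        dd ρ (j + 1) q.1 = mp ι (j + 1 + 1) q.2}
      zero_mem' := ⟨Submodule.zero_mem _, Submodule.zero_mem _, by
        rw [Prod.fst_zero, Prod.snd_zero, map_zero, map_zero]⟩
      add_mem' := by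
        rintro a b ⟨a1, a2, a3⟩ ⟨b1, b2, b3⟩
        exact ⟨Submodule.add_mem _ a1 b1, Submodule.add_mem _ a2 b2, by
          rw [Prod.fst_add, Prod.snd_add, map_add, map_add, a3, b3]⟩
      smul_mem' := by
        rintro r a ⟨a1, a2, a3⟩
        exact ⟨Submodule.smul_mem _ _ a1, Submodule.smul_mem _ _ a2, by
          rw [Prod.smul_fst, Prod.smul_snd, map_smul, map_smul, a3]⟩ }
  have hsnd : ∀ q ∈ Q, dd ρ' (j + 1 + 1) q.2 = 0 := by
    rintro q ⟨-, -, q3⟩
    have h3 : mp ι _ (dd ρ' (j + 1 + 1) q.2) = 0 := by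
      rw [← dd_mp ρ' ρ ι hι, ← q3, dd_dd]
    funext x
    exact hinj ((congrFun h3 x).trans (map_zero ι).symm)
  obtain ⟨S2, hS2, hS2T, hTS2⟩ := exists_gen (T := Q.map (LinearMap.snd A _ _)) hS1 hZS1 (by
    rintro _ ⟨q, hq, rfl⟩
    exact ⟨hq.2.1, LinearMap.mem_ker.2 (hsnd q hq)⟩)
  obtain ⟨Q', hQ', hQ'Q, hQ'S⟩ := exists_lift (LinearMap.snd A _ _) Q S2 hS2 hS2T
  refine ⟨(Q'.map (LinearMap.fst A _ _)).map (mp π (j + 1)) ⊔ S.map (mp π (j + 1)),
    ((hQ'.map _).map _).sup (hS.map _), ?_, ?_⟩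
  · rw [sup_le_iff]
    constructor
    · rintro _ ⟨_, ⟨q, hq, rfl⟩, rfl⟩
      obtain ⟨q1, q2, q3⟩ := hQ'Q hq
      refine ⟨hpush _ _ q1, LinearMap.mem_ker.2 ?_⟩
      rw [dd_mp ρ ρ'' π hπ]
      change mp π _ (dd ρ (j + 1) q.1) = 0
      rw [q3]
      funext x
      exact hπι _
    · rintro _ ⟨s, hs, rfl⟩
      obtain ⟨s1, s2⟩ := hSZ hs
      refine ⟨hpush _ _ s1, LinearMap.mem_ker.2 ?_⟩
      rw [dd_mp ρ ρ'' π hπ, LinearMap.mem_ker.1 s2, map_zero]
  · rintro z ⟨hz1, hz2⟩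
    obtain ⟨c, hc, rfl⟩ := hlift _ _ hz1
    have h3 : ∀ x, π (dd ρ (j + 1) c x) = 0 := by
      intro x
      have h4 := LinearMap.mem_ker.1 hz2
      rw [dd_mp ρ ρ'' π hπ] at h4
      exact congrFun h4 x
    choose z' hz' using fun x => hex _ (h3 x)
    have h5 : mp ι (j + 1 + 1) z' = dd ρ (j + 1) c := funext hz'
    have h6 : z' ∈ C' (j + 1 + 1) := by
      rw [← hemb, h5]
      exact hd _ _ hc
    have h7 : (c, z') ∈ Q := ⟨hc, h6, h5.symm⟩
    obtain ⟨s', hs', b', hb', hsb⟩ := Submodule.mem_sup.1 (hTS2 ⟨(c, z'), h7, rfl⟩)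
    rw [← hQ'S] at hs'
    obtain ⟨q, hq, rfl⟩ := hs'
    obtain ⟨e', he', rfl⟩ := hb'
    obtain ⟨q1, q2, q3⟩ := hQ'Q hq
    have hsb' : q.2 + dd ρ' (j + 1) e' = z' := hsb
    have h8 : c - q.1 - mp ι (j + 1) e' ∈ C (j + 1) ⊓ LinearMap.ker (dd ρ (j + 1)) := by
      refine ⟨Submodule.sub_mem _ (Submodule.sub_mem _ hc q1) ((hemb _ _).2 he'),
        LinearMap.mem_ker.2 ?_⟩
      rw [map_sub, map_sub, q3, ← h5, dd_mp ρ' ρ ι hι, ← hsb', map_add]
      abel
    obtain ⟨s, hs, b, ⟨e, he, rfl⟩, hsb2⟩ := Submodule.mem_sup.1 (hZS h8)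
    have h9 : mp π (j + 1) c = (mp π (j + 1) q.1 + mp π (j + 1) s) + dd ρ'' j (mp π j e) := by
      rw [dd_mp ρ ρ'' π hπ, ← map_add, ← map_add]
      have h10 : c = (q.1 + s + dd ρ j e) + mp ι (j + 1) e' := by
        rw [add_assoc q.1, hsb2]
        abel
      conv_lhs => rw [h10, map_add]
      rw [add_eq_left]
      funext x
      exact hπι _
    rw [h9]
    refine Submodule.add_mem_sup (Submodule.add_mem_sup ?_ (Submodule.mem_map_of_mem hs)) ?_
    · exact Submodule.mem_map_of_mem ⟨q, hq, rfl⟩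
    · exact Submodule.mem_map_of_mem (hpush _ _ he)

end cochains

section cont

variable {A G M : Type} [CommRing A] [TopologicalSpace G] [AddCommGroup M] [Module A M]

/-- The continuous cochains, for the topology of `M` given by a family of submodules. -/
def Cont (Fl : ℕ → Submodule A M) (j : ℕ) : Submodule A ((Fin j → G) → M) where
  carrier := {c | ∀ (k : ℕ) (x : Fin j → G), ∀ᶠ y in 𝓝 x, c y - c x ∈ Fl k}
  zero_mem' := fun k x => Filter.Eventually.of_forall fun y => by simp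
  add_mem' := by
    intro a b ha hb k x
    filter_upwards [ha k x, hb k x] with y h1 h2
    have h3 : (a + b) y - (a + b) x = (a y - a x) + (b y - b x) := by
      rw [Pi.add_apply, Pi.add_apply]
      abel
    rw [h3]
    exact Submodule.add_mem _ h1 h2
  smul_mem' := by
    intro r a ha k x
    filter_upwards [ha k x] with y h1
    rw [Pi.smul_apply, Pi.smul_apply, ← smul_sub]
    exact Submodule.smul_mem _ _ h1

theorem mem_Cont (Fl : ℕ → Submodule A M) (j : ℕ) (c : (Fin j → G) → M) :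
    c ∈ Cont Fl j ↔ ∀ (k : ℕ) (x : Fin j → G), ∀ᶠ y in 𝓝 x, c y - c x ∈ Fl k := Iff.rfl

variable [Group G] [ContinuousMul G]

theorem continuous_contractNth (j : ℕ) (i : Fin (j + 1)) :
    Continuous fun x : Fin (j + 1) → G => Fin.contractNth i (· * ·) x := by
  refine continuous_pi fun k => ?_
  unfold Fin.contractNth
  split_ifs
  · exact continuous_apply _
  · exact (continuous_apply _).mul (continuous_apply _)
  · exact continuous_apply _

theorem dd_mem_Cont (ρ : Representation A G M) (Fl : ℕ → Submodule A M)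
    (h1 : ∀ k x, ∀ m ∈ Fl k, ρ x m ∈ Fl k)
    (h2 : ∀ k m, ∀ᶠ x in 𝓝 (1 : G), ρ x m - m ∈ Fl k) (j : ℕ) (c : (Fin j → G) → M)
    (hc : c ∈ Cont Fl j) : dd ρ j c ∈ Cont Fl (j + 1) := by
  intro k x
  have e1 : ∀ᶠ y in 𝓝 x, ρ (y 0) (c fun i => x i.succ) - ρ (x 0) (c fun i => x i.succ) ∈ Fl k := by
    have h3 : Filter.Tendsto (fun y : Fin (j + 1) → G => (x 0)⁻¹ * y 0) (𝓝 x) (𝓝 1) := by
      have h4 : Continuous fun y : Fin (j + 1) → G => (x 0)⁻¹ * y 0 :=
        continuous_const.mul (continuous_apply 0)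
      have h5 := h4.tendsto x
      rwa [inv_mul_cancel] at h5
    filter_upwards [h3.eventually (h2 k (c fun i => x i.succ))] with y hy
    have h6 := h1 k (x 0) _ hy
    rwa [map_sub, ← Module.End.mul_apply, ← map_mul, mul_inv_cancel_left] at h6
  have e2 : ∀ᶠ y in 𝓝 x, (c fun i => y i.succ) - (c fun i => x i.succ) ∈ Fl k := by
    have h4 : Continuous fun y : Fin (j + 1) → G => fun i : Fin j => y i.succ :=
      continuous_pi fun i => continuous_apply _
    exact (h4.tendsto x).eventually (hc k _)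
  have e3 : ∀ᶠ y in 𝓝 x, ∀ i : Fin (j + 1),
      c (Fin.contractNth i (· * ·) y) - c (Fin.contractNth i (· * ·) x) ∈ Fl k := by
    rw [Filter.eventually_all]
    exact fun i => ((continuous_contractNth j i).tendsto x).eventually (hc k _)
  filter_upwards [e1, e2, e3] with y y1 y2 y3
  have h7 : dd ρ j c y - dd ρ j c x =
      (ρ (y 0) ((c fun i => y i.succ) - (c fun i => x i.succ)) +
        (ρ (y 0) (c fun i => x i.succ) - ρ (x 0) (c fun i => x i.succ))) +
      ∑ i : Fin (j + 1), (-1 : A) ^ ((i : ℕ) + 1) •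
        (c (Fin.contractNth i (· * ·) y) - c (Fin.contractNth i (· * ·) x)) := by
    rw [dd_apply, dd_apply, map_sub]
    simp only [smul_sub, Finset.sum_sub_distrib]
    abel
  rw [h7]
  exact Submodule.add_mem _ (Submodule.add_mem _ (h1 _ _ _ y2) y1)
    (Submodule.sum_mem _ fun i _ => Submodule.smul_mem _ _ (y3 i))

end cont

end Vale.Agent.P261.R2.H398
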