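import Mathlib

/-!
# P261: continuous set-theoretic sections of `R → R / I` for a complete ring `R` (helper398)
-/

namespace Vale.Agent.P261.R2.H398

section

variable {R : Type*} [CommRing R]

theorem exists_section (m I : Ideal R)
    (hP : ∀ f : ℕ → R, (∀ k, f (k + 1) - f k ∈ m ^ k) → ∃ L, ∀ k, f k - L ∈ m ^ k)
    (hI : ∀ x, (∀ k, x ∈ I ⊔ m ^ k) → x ∈ I) :
    ∃ σ : R ⧸ I → R, (∀ x, Ideal.Quotient.mk I (σ x) = x) ∧
      ∀ (k : ℕ) (x y : R), x - y ∈ I ⊔ m ^ k →
        σ (Ideal.Quotient.mk I x) - σ (Ideal.Quotient.mk I y) ∈ m ^ k := by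
  classical
  have hJ : ∀ k, I ⊔ m ^ (k + 1) ≤ I ⊔ m ^ k := fun k =>
    sup_le_sup_left (Ideal.pow_le_pow_right (Nat.le_succ k)) _
  -- representatives
  have hrep : ∀ k : ℕ, ∃ rep : R → R, (∀ r, rep r - r ∈ I ⊔ m ^ k) ∧
      ∀ r r', r - r' ∈ I ⊔ m ^ k → rep r = rep r' := by
    intro k
    refine ⟨fun r => (Ideal.Quotient.mk_surjective (I := I ⊔ m ^ k)
      (Ideal.Quotient.mk (I ⊔ m ^ k) r)).choose, fun r => ?_, fun r r' h => ?_⟩
    · rw [← Ideal.Quotient.eq]
      exact (Ideal.Quotient.mk_surjective (I := I ⊔ m ^ k)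
        (Ideal.Quotient.mk (I ⊔ m ^ k) r)).choose_spec
    · rw [← Ideal.Quotient.eq] at h
      simp only [h]
  choose rep hrep1 hrep2 using hrep
  let s : ℕ → R → R := fun k => Nat.rec (fun _ => 0) (fun k sk r =>
    sk (rep (k + 1) r) + (if h : ∃ a, a ∈ m ^ k ∧ rep (k + 1) r - sk (rep (k + 1) r) - a ∈ I
      then h.choose else 0)) k
  have hs : ∀ k r, s (k + 1) r = s k (rep (k + 1) r) +
      (if h : ∃ a, a ∈ m ^ k ∧ rep (k + 1) r - s k (rep (k + 1) r) - a ∈ I
        then h.choose else 0) := fun k r => rfl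
  have P1 : ∀ k r, s k r - r ∈ I ⊔ m ^ k := by
    intro k
    induction k with
    | zero =>
      intro r
      rw [pow_zero, Ideal.one_eq_top, sup_top_eq]
      exact Submodule.mem_top
    | succ k ih =>
      intro r
      have h1 : ∃ a, a ∈ m ^ k ∧ rep (k + 1) r - s k (rep (k + 1) r) - a ∈ I := by
        have h2 := neg_mem (ih (rep (k + 1) r))
        rw [neg_sub] at h2
        obtain ⟨i, hi, a, ha, h3⟩ := Submodule.mem_sup.1 h2
        exact ⟨a, ha, by rw [← h3, add_sub_cancel_right]; exact hi⟩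
      rw [hs, dif_pos h1]
      have h4 : s k (rep (k + 1) r) + h1.choose - r =
          -(rep (k + 1) r - s k (rep (k + 1) r) - h1.choose) + (rep (k + 1) r - r) := by ring
      rw [h4]
      exact add_mem (neg_mem (Ideal.mem_sup_left h1.choose_spec.2)) (hrep1 _ _)
  have P2 : ∀ k r r', r - r' ∈ I ⊔ m ^ k → s k r = s k r' := by
    intro k
    induction k with
    | zero => exact fun r r' _ => rfl
    | succ k ih =>
      intro r r' h
      rw [hs, hs, hrep2 (k + 1) r r' h]
  have P3 : ∀ k r, s (k + 1) r - s k r ∈ m ^ k := by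
    intro k r
    have h1 : ∃ a, a ∈ m ^ k ∧ rep (k + 1) r - s k (rep (k + 1) r) - a ∈ I := by
      have h2 := neg_mem (P1 k (rep (k + 1) r))
      rw [neg_sub] at h2
      obtain ⟨i, hi, a, ha, h3⟩ := Submodule.mem_sup.1 h2
      exact ⟨a, ha, by rw [← h3, add_sub_cancel_right]; exact hi⟩
    have h5 : s k (rep (k + 1) r) - s k r = 0 :=
      sub_eq_zero.2 (P2 k (rep (k + 1) r) r (hJ k (hrep1 _ _)))
    have h6 : s k (rep (k + 1) r) + h1.choose - s k r =
      h1.choose + (s k (rep (k + 1) r) - s k r) := by ring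
    rw [hs, dif_pos h1, h6, h5, add_zero]
    exact h1.choose_spec.1
  choose L hL using fun r => hP (fun k => s k r) (fun k => P3 k r)
  have hLI : ∀ r, L r - r ∈ I := by
    intro r
    refine hI _ fun k => ?_
    have h1 : L r - r = -(s k r - L r) + (s k r - r) := by ring
    rw [h1]
    exact add_mem (neg_mem (Ideal.mem_sup_right (hL r k))) (P1 k r)
  have hLk : ∀ k r r', r - r' ∈ I ⊔ m ^ k → L r - L r' ∈ m ^ k := by
    intro k r r' h
    have h1 : L r - L r' = -(s k r - L r) + (s k r' - L r') + (s k r - s k r') := by ring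
    rw [h1, sub_eq_zero.2 (P2 k r r' h), add_zero]
    exact add_mem (neg_mem (hL r k)) (hL r' k)
  refine ⟨fun x => L (Ideal.Quotient.mk_surjective x).choose, fun x => ?_, fun k x y h => ?_⟩
  · have h1 := (Ideal.Quotient.mk_surjective x).choose_spec
    conv_rhs => rw [← h1]
    exact Ideal.Quotient.eq.2 (hLI _)
  · refine hLk k _ _ ?_
    have h1 := Ideal.Quotient.eq.1 (Ideal.Quotient.mk_surjective (Ideal.Quotient.mk I x)).choose_spec
    have h2 := Ideal.Quotient.eq.1 (Ideal.Quotient.mk_surjective (Ideal.Quotient.mk I y)).choose_spec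
    have h3 : (Ideal.Quotient.mk_surjective (Ideal.Quotient.mk I x)).choose -
        (Ideal.Quotient.mk_surjective (Ideal.Quotient.mk I y)).choose =
        ((Ideal.Quotient.mk_surjective (Ideal.Quotient.mk I x)).choose - x) -
        ((Ideal.Quotient.mk_surjective (Ideal.Quotient.mk I y)).choose - y) + (x - y) := by ring
    rw [h3]
    exact add_mem (sub_mem (Ideal.mem_sup_left h1) (Ideal.mem_sup_left h2)) h

end

end Vale.Agent.P261.R2.H398
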